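import Mathlib

/-!
# Binary kernel theorem (P181, block B1): definitions

`sw i j` swaps two variables, `dd i j` is the divided difference
`(f - sw i j f) / (X i - X j)`, and `T q i` is the Dunkl operator
`pderiv i - q * sum over j of dd i j`.
-/

namespace Vale.Agent.P181.H965

open MvPolynomial

variable {K : Type} [Field K] {τ : Type} [DecidableEq τ]

/-- Swap of the variables `i` and `j`. -/
noncomputable def sw (i j : τ) : MvPolynomial τ K →ₐ[K] MvPolynomial τ K :=
  rename (Equiv.swap i j)

theorem X_sub_X_dvd (i j : τ) (f : MvPolynomial τ K) :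
    (X i - X j : MvPolynomial τ K) ∣ f - sw i j f := by
  induction f using MvPolynomial.induction_on with
  | C a => simp [sw]
  | add p r hp hr =>
    have : p + r - sw i j (p + r) = (p - sw i j p) + (r - sw i j r) := by
      rw [map_add]; ring
    rw [this]; exact dvd_add hp hr
  | mul_X p k hp =>
    have h1 : (X i - X j : MvPolynomial τ K) ∣ X k - sw i j (X k) := by
      by_cases hi : k = i
      · subst hi; simp [sw]
      · by_cases hj : k = j
        · subst hj
          have : (X k - sw i k (X k) : MvPolynomial τ K) = (X i - X k) * (-1) := by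
            simp [sw]
          rw [this]; exact dvd_mul_right _ _
        · simp [sw, Equiv.swap_apply_of_ne_of_ne hi hj]
    have : p * X k - sw i j (p * X k) =
        (p - sw i j p) * X k + sw i j p * (X k - sw i j (X k)) := by
      rw [map_mul]; ring
    rw [this]
    exact dvd_add (Dvd.dvd.mul_right hp _) (Dvd.dvd.mul_left h1 _)

/-- The divided difference, as a function. -/
noncomputable def ddf (i j : τ) (f : MvPolynomial τ K) : MvPolynomial τ K :=
  if i = j then 0 else (X_sub_X_dvd i j f).choose

theorem X_sub_X_ne {i j : τ} (h : i ≠ j) : (X i - X j : MvPolynomial τ K) ≠ 0 := by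
  intro h0
  exact h (X_injective (sub_eq_zero.mp h0))

theorem ddf_spec (i j : τ) (f : MvPolynomial τ K) :
    (X i - X j) * ddf i j f = f - sw i j f := by
  unfold ddf
  split_ifs with h
  · subst h
    simp [sw]
  · exact (X_sub_X_dvd i j f).choose_spec.symm

/-- The divided difference `(f - sw i j f) / (X i - X j)` (and `0` if `i = j`). -/
noncomputable def dd (i j : τ) : MvPolynomial τ K →ₗ[K] MvPolynomial τ K where
  toFun := ddf i j
  map_add' f g := by
    by_cases h : i = j
    · simp [ddf, h]
    · apply mul_left_cancel₀ (X_sub_X_ne (K := K) h)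
      rw [mul_add, ddf_spec, ddf_spec, ddf_spec, map_add]; ring
  map_smul' c f := by
    by_cases h : i = j
    · simp [ddf, h]
    · apply mul_left_cancel₀ (X_sub_X_ne (K := K) h)
      rw [ddf_spec, map_smul, RingHom.id_apply, mul_smul_comm, ddf_spec, smul_sub]

theorem dd_spec (i j : τ) (f : MvPolynomial τ K) :
    (X i - X j) * dd i j f = f - sw i j f := ddf_spec i j f

@[simp] theorem dd_self (i : τ) (f : MvPolynomial τ K) : dd i i f = 0 := by
  simp [dd, ddf]

/-- Uniqueness of the divided difference. -/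
theorem dd_eq_of {i j : τ} (h : i ≠ j) {f g : MvPolynomial τ K}
    (e : (X i - X j) * g = f - sw i j f) : dd i j f = g := by
  apply mul_left_cancel₀ (X_sub_X_ne (K := K) h)
  rw [dd_spec, e]

variable {σ : Type} [Fintype σ] [DecidableEq σ]

/-- The Dunkl operator with `k = -q`. -/
noncomputable def T (q : ℕ) (i : σ) : MvPolynomial σ K →ₗ[K] MvPolynomial σ K :=
  (pderiv i : Derivation K (MvPolynomial σ K) (MvPolynomial σ K)).toLinearMap
    - (q : K) • ∑ j, dd i j

theorem T_apply (q : ℕ) (i : σ) (f : MvPolynomial σ K) :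
    T q i f = pderiv i f - (q : K) • ∑ j, dd i j f := by
  simp [T, LinearMap.sum_apply]

/-- The kernel family: `prod_i prod_j (u_j - X_i)^(q - [i = j])`. -/
noncomputable def kap (q : ℕ) (u : σ → K) : MvPolynomial σ K :=
  ∏ i, ∏ j, (C (u j) - X i) ^ (q - if i = j then 1 else 0)

/-- `Q_l(u) = prod_j (u - X_j)^(q - [j = l])`, a polynomial in `u` over `K[X]`. -/
noncomputable def Qp (K : Type) [Field K] (q : ℕ) (l : σ) : Polynomial (MvPolynomial σ K) :=
  ∏ j, (Polynomial.X - Polynomial.C (X j)) ^ (q - if j = l then 1 else 0)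

/-- `p_l = sum_j int_0^(X_j) Q_l(u) du`. -/
noncomputable def pp (K : Type) [Field K] (q : ℕ) (l : σ) : MvPolynomial σ K :=
  (Qp K q l).sum fun n a => a * (C ((n + 1 : K)⁻¹) * ∑ j, X j ^ (n + 1))

/-- Block KER: the span of the kernel family is stable under the Dunkl operators. -/
def KerStmt (K : Type) [Field K] (σ : Type) [Fintype σ] [DecidableEq σ] : Prop :=
  ∀ q : ℕ, 1 ≤ q → ∀ i : σ, ∀ F ∈ Submodule.span K (Set.range (kap (K := K) (σ := σ) q)),
    T q i F ∈ Submodule.span K (Set.range (kap (K := K) (σ := σ) q))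

/-- Block ZER: the system `p_l` (`l` in `A`), `X_l` (`l` not in `A`) has no common zero
but the origin (in Nullstellensatz form). -/
def ZerStmt (K : Type) [Field K] (σ : Type) [Fintype σ] [DecidableEq σ] : Prop :=
  ∀ q : ℕ, 1 ≤ q → ∀ A : Set σ, ∀ j : σ, ∃ n : ℕ,
    (X j : MvPolynomial σ K) ^ n ∈
      Ideal.span ({f | ∃ l ∈ A, f = pp K q l} ∪ {f | ∃ l, l ∉ A ∧ f = X l})

/-- Block CNT: commuting degree lowering operators with trivial common kernel are
coregular (pure counting of monomials). -/
def CntStmt (K : Type) [Field K] (d : ℕ) : Prop :=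
  ∀ t : Fin d → Module.End K (MvPolynomial (Fin d) K),
    (∀ i j, Commute (t i) (t j)) →
    (∀ i n f, f.IsHomogeneous (n + 1) → (t i f).IsHomogeneous n) →
    (∀ i f, f.IsHomogeneous 0 → t i f = 0) →
    (∀ n f, f.IsHomogeneous (n + 1) → (∀ i, t i f = 0) → f = 0) →
    ∀ (k : Fin d) (n : ℕ) (f : MvPolynomial (Fin d) K), f.IsHomogeneous n →
      (∀ l, k < l → t l f = 0) →
      ∃ g : MvPolynomial (Fin d) K, g.IsHomogeneous (n + 1) ∧ (∀ l, k < l → t l g = 0) ∧
        t k g = f

end Vale.Agent.P181.H965
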